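import Mathlib

/-!
# Prékopa–Leindler inequality, one-dimensional case
-/

set_option autoImplicit false

open MeasureTheory Set Filter
open scoped ENNReal Pointwise

namespace Crest.Agent.PL

/-- One-dimensional Brunn–Minkowski, compact case. -/
theorem bm1_compact {a b : ℝ} (ha : 0 < a) (hb : 0 < b) {A B C : Set ℝ}
    (hA : IsCompact A) (hB : IsCompact B) (hAn : A.Nonempty) (hBn : B.Nonempty)
    (hC : ∀ x ∈ A, ∀ y ∈ B, a * x + b * y ∈ C) :
    ENNReal.ofReal a * volume A + ENNReal.ofReal b * volume B ≤ volume C := by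
  obtain ⟨α, hαA, hα⟩ := hA.exists_isGreatest hAn
  obtain ⟨β, hβB, hβ⟩ := hB.exists_isLeast hBn
  set p := a * α + b * β with hp
  have h1 : ENNReal.ofReal a * volume A ≤ volume (C ∩ Iic p) := by
    have e1 : volume ((fun x => a * x + b * β) '' A) = ENNReal.ofReal a * volume A := by
      have : (fun x => a * x + b * β) '' A = (fun x => x + b * β) '' (a • A) := by
        ext z; simp only [mem_image, mem_smul_set, smul_eq_mul]
        constructor
        · rintro ⟨x, hx, rfl⟩; exact ⟨a * x, ⟨x, hx, rfl⟩, rfl⟩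
        · rintro ⟨_, ⟨x, hx, rfl⟩, rfl⟩; exact ⟨x, hx, rfl⟩
      rw [this, image_add_right, measure_preimage_add_right, Measure.addHaar_smul]
      simp [abs_of_pos ha]
    rw [← e1]
    apply measure_mono
    rintro _ ⟨x, hx, rfl⟩
    refine ⟨hC x hx β hβB, ?_⟩
    have := hα hx
    simp only [mem_Iic, hp]
    nlinarith
  have h2 : ENNReal.ofReal b * volume B ≤ volume (C \ Iic p) := by
    have e1 : volume ((fun y => a * α + b * y) '' B) = ENNReal.ofReal b * volume B := by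
      have : (fun y => a * α + b * y) '' B = (fun x => a * α + x) '' (b • B) := by
        ext z; simp only [mem_image, mem_smul_set, smul_eq_mul]
        constructor
        · rintro ⟨x, hx, rfl⟩; exact ⟨b * x, ⟨x, hx, rfl⟩, rfl⟩
        · rintro ⟨_, ⟨x, hx, rfl⟩, rfl⟩; exact ⟨x, hx, rfl⟩
      rw [this, image_add_left, measure_preimage_add, Measure.addHaar_smul]
      simp [abs_of_pos hb]
    rw [← e1]
    calc volume ((fun y => a * α + b * y) '' B) ≤ volume ((C \ Iic p) ∪ {p}) := by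
          apply measure_mono
          rintro _ ⟨y, hy, rfl⟩
          have h := hβ hy
          rcases eq_or_lt_of_le h with h | h
          · right; simp [hp, h]
          · left
            refine ⟨hC α hαA y hy, ?_⟩
            simp only [mem_Iic, hp, not_le]
            nlinarith
      _ ≤ volume (C \ Iic p) + volume ({p} : Set ℝ) := measure_union_le _ _
      _ = volume (C \ Iic p) := by simp
  calc _ ≤ volume (C ∩ Iic p) + volume (C \ Iic p) := add_le_add h1 h2
    _ = volume C := measure_inter_add_sdiff _ measurableSet_Iic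

theorem measure_eq_iSup_compact_nonempty {A : Set ℝ} (hA : MeasurableSet A) :
    volume A = ⨆ K : {K : Set ℝ // K ⊆ A ∧ IsCompact K ∧ K.Nonempty}, volume K.1 := by
  apply le_antisymm
  · apply le_of_forall_lt
    intro r hr
    obtain ⟨K, hKA, hK, hrK⟩ := hA.exists_lt_isCompact hr
    have hKn : K.Nonempty := by
      rcases K.eq_empty_or_nonempty with h | h
      · simp [h] at hrK
      · exact h
    exact lt_of_lt_of_le hrK (le_iSup (fun K : {K : Set ℝ // K ⊆ A ∧ IsCompact K ∧ K.Nonempty} =>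
      volume K.1) ⟨K, hKA, hK, hKn⟩)
  · exact iSup_le fun K => measure_mono K.2.1

/-- One-dimensional Brunn–Minkowski. -/
theorem bm1 {a b : ℝ} (ha : 0 < a) (hb : 0 < b) {A B C : Set ℝ}
    (hA : MeasurableSet A) (hB : MeasurableSet B) (hAn : A.Nonempty) (hBn : B.Nonempty)
    (hC : ∀ x ∈ A, ∀ y ∈ B, a * x + b * y ∈ C) :
    ENNReal.ofReal a * volume A + ENNReal.ofReal b * volume B ≤ volume C := by
  rw [measure_eq_iSup_compact_nonempty hA, measure_eq_iSup_compact_nonempty hB,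
    ENNReal.mul_iSup, ENNReal.mul_iSup]
  obtain ⟨x, hx⟩ := hAn
  obtain ⟨y, hy⟩ := hBn
  have : Nonempty {K : Set ℝ // K ⊆ A ∧ IsCompact K ∧ K.Nonempty} :=
    ⟨⟨{x}, by simpa using hx, isCompact_singleton, singleton_nonempty x⟩⟩
  have : Nonempty {K : Set ℝ // K ⊆ B ∧ IsCompact K ∧ K.Nonempty} :=
    ⟨⟨{y}, by simpa using hy, isCompact_singleton, singleton_nonempty y⟩⟩
  apply ENNReal.iSup_add_iSup_le
  rintro ⟨K, hKA, hK, hKn⟩ ⟨L, hLB, hL, hLn⟩
  exact bm1_compact ha hb hK hL hKn hLn fun x hx y hy => hC x (hKA hx) y (hLB hy)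

/-- Layer cake formula for finite extended-valued functions. -/
theorem layer_cake {α : Type*} [MeasurableSpace α] (μ : Measure α) {F : α → ℝ≥0∞}
    (hF : Measurable F) (hF1 : ∀ x, F x ≠ ⊤) :
    ∫⁻ x, F x ∂μ = ∫⁻ t in Ioi (0 : ℝ), μ {x | ENNReal.ofReal t < F x} := by
  have h := lintegral_eq_lintegral_meas_lt (f := fun x => (F x).toReal) μ
    (Eventually.of_forall fun x => ENNReal.toReal_nonneg) hF.ennreal_toReal.aemeasurable
  simp only [ENNReal.ofReal_toReal (hF1 _)] at h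
  rw [h]
  apply setLIntegral_congr_fun measurableSet_Ioi
  intro t ht
  simp only
  congr 1
  ext x
  simp only [mem_ofPred_eq]
  rw [ENNReal.ofReal_lt_iff_lt_toReal (le_of_lt ht) (hF1 x)]

theorem measurable_level {α : Type*} [MeasurableSpace α] (μ : Measure α) (F : α → ℝ≥0∞) :
    Measurable fun t : ℝ => μ {x | ENNReal.ofReal t < F x} := by
  apply Antitone.measurable
  intro s t hst
  apply measure_mono
  intro x hx
  exact lt_of_le_of_lt (ENNReal.ofReal_le_ofReal hst) hx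

/-- Additive form for normalised functions. -/
theorem pl1_normalized {a b : ℝ} (ha : 0 < a) (hb : 0 < b) (hab : a + b = 1)
    {f g h : ℝ → ℝ≥0∞} (hf : Measurable f) (hg : Measurable g) (hh : Measurable h)
    (hf1 : ∀ x, f x ≤ 1) (hg1 : ∀ x, g x ≤ 1)
    (hf2 : ∀ t : ℝ≥0∞, t < 1 → ∃ x, t < f x) (hg2 : ∀ t : ℝ≥0∞, t < 1 → ∃ x, t < g x)
    (H : ∀ x y, f x ^ a * g y ^ b ≤ h (a * x + b * y)) :
    ENNReal.ofReal a * (∫⁻ x, f x) + ENNReal.ofReal b * (∫⁻ x, g x) ≤ ∫⁻ x, h x := by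
  have hh' : Measurable fun x => min (h x) 1 := hh.min measurable_const
  calc _ ≤ ∫⁻ x, min (h x) 1 := ?_
    _ ≤ ∫⁻ x, h x := lintegral_mono fun x => min_le_left _ _
  rw [layer_cake volume hf (fun x => ne_top_of_le_ne_top ENNReal.one_ne_top (hf1 x)),
    layer_cake volume hg (fun x => ne_top_of_le_ne_top ENNReal.one_ne_top (hg1 x)),
    layer_cake volume hh' (fun x => ne_top_of_le_ne_top ENNReal.one_ne_top (min_le_right _ _)),
    ← lintegral_const_mul _ (measurable_level volume f),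
    ← lintegral_const_mul _ (measurable_level volume g),
    ← lintegral_add_left ((measurable_level volume f).const_mul _)]
  apply setLIntegral_mono' measurableSet_Ioi
  intro t ht
  have ht0 : 0 < t := ht
  rcases lt_or_ge t 1 with ht1 | ht1
  · have ht1' : ENNReal.ofReal t < 1 := by
      rwa [← ENNReal.ofReal_one, ENNReal.ofReal_lt_ofReal_iff one_pos]
    apply bm1 ha hb (measurableSet_lt measurable_const hf) (measurableSet_lt measurable_const hg)
      (hf2 _ ht1') (hg2 _ ht1')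
    intro x hx y hy
    simp only [mem_ofPred_eq, lt_min_iff] at hx hy ⊢
    refine ⟨lt_of_lt_of_le ?_ (H x y), ht1'⟩
    have e : ENNReal.ofReal t = ENNReal.ofReal t ^ a * ENNReal.ofReal t ^ b := by
      rw [← ENNReal.rpow_add_of_nonneg _ _ ha.le hb.le, hab, ENNReal.rpow_one]
    rw [e]
    exact ENNReal.mul_lt_mul (ENNReal.rpow_lt_rpow hx ha) (ENNReal.rpow_lt_rpow hy hb)
  · have ht1' : 1 ≤ ENNReal.ofReal t := by
      rw [← ENNReal.ofReal_one]; exact ENNReal.ofReal_le_ofReal ht1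
    have e1 : {x | ENNReal.ofReal t < f x} = ∅ := by
      ext x; simp only [mem_ofPred_eq, mem_empty_iff_false, iff_false, not_lt]
      exact (hf1 x).trans ht1'
    have e2 : {x | ENNReal.ofReal t < g x} = ∅ := by
      ext x; simp only [mem_ofPred_eq, mem_empty_iff_false, iff_false, not_lt]
      exact (hg1 x).trans ht1'
    simp [e1, e2]

theorem ennreal_amgm {a b : ℝ} (ha : 0 < a) (hb : 0 < b) (hab : a + b = 1) (x y : ℝ≥0∞) :
    x ^ a * y ^ b ≤ ENNReal.ofReal a * x + ENNReal.ofReal b * y := by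
  rcases eq_or_ne x ⊤ with rfl | hx
  · have : ENNReal.ofReal a * ⊤ = ⊤ := ENNReal.mul_top (by simpa using ha)
    simp [this]
  rcases eq_or_ne y ⊤ with rfl | hy
  · have : ENNReal.ofReal b * ⊤ = ⊤ := ENNReal.mul_top (by simpa using hb)
    simp [this]
  lift x to NNReal using hx
  lift y to NNReal using hy
  lift a to NNReal using ha.le
  lift b to NNReal using hb.le
  have := NNReal.geom_mean_le_arith_mean2_weighted a b x y (by exact_mod_cast hab)
  rw [← ENNReal.coe_rpow_of_nonneg _ a.coe_nonneg, ← ENNReal.coe_rpow_of_nonneg _ b.coe_nonneg]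
  simp only [ENNReal.ofReal_coe_nnreal]
  exact_mod_cast this

/-- One-dimensional Prékopa–Leindler, bounded functions. -/
theorem pl1_bounded {a b : ℝ} (ha : 0 < a) (hb : 0 < b) (hab : a + b = 1)
    {f g h : ℝ → ℝ≥0∞} (hf : Measurable f) (hg : Measurable g) (hh : Measurable h)
    (hf1 : ⨆ x, f x ≠ ⊤) (hg1 : ⨆ x, g x ≠ ⊤)
    (H : ∀ x y, f x ^ a * g y ^ b ≤ h (a * x + b * y)) :
    (∫⁻ x, f x) ^ a * (∫⁻ x, g x) ^ b ≤ ∫⁻ x, h x := by
  set S := ⨆ x, f x with hS
  set T := ⨆ x, g x with hT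
  rcases eq_or_ne S 0 with hS0 | hS0
  · have : ∀ x, f x = 0 := fun x => le_antisymm (hS0 ▸ le_iSup f x) bot_le
    simp [this, ENNReal.zero_rpow_of_pos ha]
  rcases eq_or_ne T 0 with hT0 | hT0
  · have : ∀ x, g x = 0 := fun x => le_antisymm (hT0 ▸ le_iSup g x) bot_le
    simp [this, ENNReal.zero_rpow_of_pos hb]
  set U := S ^ a * T ^ b with hU
  have hU0 : U ≠ 0 := mul_ne_zero (ENNReal.rpow_pos (pos_iff_ne_zero.2 hS0) hf1).ne'
    (ENNReal.rpow_pos (pos_iff_ne_zero.2 hT0) hg1).ne'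
  have hUt : U ≠ ⊤ := ENNReal.mul_ne_top (ENNReal.rpow_ne_top_of_nonneg ha.le hf1)
    (ENNReal.rpow_ne_top_of_nonneg hb.le hg1)
  have key := pl1_normalized ha hb hab (f := fun x => S⁻¹ * f x) (g := fun x => T⁻¹ * g x)
    (h := fun x => U⁻¹ * h x) (hf.const_mul _) (hg.const_mul _) (hh.const_mul _)
    (fun x => by
      calc S⁻¹ * f x ≤ S⁻¹ * S := by gcongr; exact le_iSup f x
        _ = 1 := ENNReal.inv_mul_cancel hS0 hf1)
    (fun x => by
      calc T⁻¹ * g x ≤ T⁻¹ * T := by gcongr; exact le_iSup g x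
        _ = 1 := ENNReal.inv_mul_cancel hT0 hg1)
    (fun t ht => by
      have : S * t < S := by
        simpa using ENNReal.mul_lt_mul_right hS0 hf1 ht
      obtain ⟨x, hx⟩ := lt_iSup_iff.1 (hS ▸ this)
      refine ⟨x, ?_⟩
      calc t = S⁻¹ * (S * t) := by rw [← mul_assoc, ENNReal.inv_mul_cancel hS0 hf1, one_mul]
        _ < S⁻¹ * f x := ENNReal.mul_lt_mul_right (ENNReal.inv_ne_zero.2 hf1)
          (ENNReal.inv_ne_top.2 hS0) hx)
    (fun t ht => by
      have : T * t < T := by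
        simpa using ENNReal.mul_lt_mul_right hT0 hg1 ht
      obtain ⟨x, hx⟩ := lt_iSup_iff.1 (hT ▸ this)
      refine ⟨x, ?_⟩
      calc t = T⁻¹ * (T * t) := by rw [← mul_assoc, ENNReal.inv_mul_cancel hT0 hg1, one_mul]
        _ < T⁻¹ * g x := ENNReal.mul_lt_mul_right (ENNReal.inv_ne_zero.2 hg1)
          (ENNReal.inv_ne_top.2 hT0) hx)
    (fun x y => by
      rw [ENNReal.mul_rpow_of_nonneg _ _ ha.le, ENNReal.mul_rpow_of_nonneg _ _ hb.le, hU,
        ENNReal.mul_inv (Or.inl (ENNReal.rpow_pos (pos_iff_ne_zero.2 hS0) hf1).ne')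
          (Or.inl (ENNReal.rpow_ne_top_of_nonneg ha.le hf1)), ENNReal.inv_rpow, ENNReal.inv_rpow]
      calc (S ^ a)⁻¹ * f x ^ a * ((T ^ b)⁻¹ * g y ^ b)
          = (S ^ a)⁻¹ * (T ^ b)⁻¹ * (f x ^ a * g y ^ b) := by ring
        _ ≤ _ := by gcongr; exact H x y)
  rw [lintegral_const_mul _ hf, lintegral_const_mul _ hg, lintegral_const_mul _ hh] at key
  have key2 := (ennreal_amgm ha hb hab _ _).trans key
  rw [ENNReal.mul_rpow_of_nonneg _ _ ha.le, ENNReal.mul_rpow_of_nonneg _ _ hb.le,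
    ENNReal.inv_rpow, ENNReal.inv_rpow] at key2
  have e : (S ^ a)⁻¹ * (∫⁻ x, f x) ^ a * ((T ^ b)⁻¹ * (∫⁻ x, g x) ^ b)
      = U⁻¹ * ((∫⁻ x, f x) ^ a * (∫⁻ x, g x) ^ b) := by
    rw [hU, ENNReal.mul_inv (Or.inl (ENNReal.rpow_pos (pos_iff_ne_zero.2 hS0) hf1).ne')
          (Or.inl (ENNReal.rpow_ne_top_of_nonneg ha.le hf1))]
    ring
  rw [e] at key2
  exact (ENNReal.mul_le_mul_iff_right (ENNReal.inv_ne_zero.2 hUt) (ENNReal.inv_ne_top.2 hU0)).1 key2

theorem lintegral_eq_iSup_min {α : Type*} [MeasurableSpace α] (μ : Measure α) {f : α → ℝ≥0∞}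
    (hf : Measurable f) : ∫⁻ x, f x ∂μ = ⨆ n : ℕ, ∫⁻ x, min (f x) n ∂μ := by
  rw [← lintegral_iSup (fun n => hf.min measurable_const)]
  · congr 1
    ext x
    apply le_antisymm
    · rcases eq_or_ne (f x) ⊤ with h | h
      · simp only [h, le_top, min_eq_right]
        rw [ENNReal.iSup_natCast]
      · obtain ⟨n, hn⟩ := ENNReal.exists_nat_gt h
        exact le_iSup_of_le n (by rw [min_eq_left hn.le])
    · exact iSup_le fun n => min_le_left _ _
  · intro m n hmn x
    exact min_le_min le_rfl (by exact_mod_cast hmn)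

theorem iSup_rpow_pos {ι : Type*} {a : ℝ} (ha : 0 < a) (u : ι → ℝ≥0∞) :
    (⨆ i, u i) ^ a = ⨆ i, u i ^ a :=
  (ENNReal.orderIsoRpow a ha).map_iSup u

/-- One-dimensional Prékopa–Leindler inequality. -/
theorem pl1 {a b : ℝ} (ha : 0 < a) (hb : 0 < b) (hab : a + b = 1)
    {f g h : ℝ → ℝ≥0∞} (hf : Measurable f) (hg : Measurable g) (hh : Measurable h)
    (H : ∀ x y, f x ^ a * g y ^ b ≤ h (a * x + b * y)) :
    (∫⁻ x, f x) ^ a * (∫⁻ x, g x) ^ b ≤ ∫⁻ x, h x := by
  rw [lintegral_eq_iSup_min volume hf, lintegral_eq_iSup_min volume hg, iSup_rpow_pos ha,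
    iSup_rpow_pos hb, ENNReal.iSup_mul]
  refine iSup_le fun m => ?_
  rw [ENNReal.mul_iSup]
  refine iSup_le fun n => ?_
  apply pl1_bounded ha hb hab (hf.min measurable_const) (hg.min measurable_const) hh
  · exact ne_top_of_le_ne_top (ENNReal.natCast_ne_top m) (iSup_le fun x => min_le_right _ _)
  · exact ne_top_of_le_ne_top (ENNReal.natCast_ne_top n) (iSup_le fun x => min_le_right _ _)
  · intro x y
    refine le_trans ?_ (H x y)
    gcongr
    · exact min_le_left _ _
    · exact min_le_left _ _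

end Crest.Agent.PL
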