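import Mathlib
import Crest.Agent.PL.OneDim

/-!
# Prékopa–Leindler inequality in finite dimension
-/

set_option autoImplicit false

open MeasureTheory Set Filter
open scoped ENNReal Pointwise

namespace Crest.Agent.PL

/-- The Prékopa–Leindler property of a measure on a real vector space, for weights `a, b`. -/
def HasPL (a b : ℝ) {G : Type*} [AddCommGroup G] [Module ℝ G] [MeasurableSpace G]
    (μ : Measure G) : Prop :=
  ∀ f g h : G → ℝ≥0∞, Measurable f → Measurable g → Measurable h →
    (∀ x y, f x ^ a * g y ^ b ≤ h (a • x + b • y)) →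
    (∫⁻ x, f x ∂μ) ^ a * (∫⁻ x, g x ∂μ) ^ b ≤ ∫⁻ x, h x ∂μ

theorem hasPL_real {a b : ℝ} (ha : 0 < a) (hb : 0 < b) (hab : a + b = 1) :
    HasPL a b (volume : Measure ℝ) :=
  fun _ _ _ hf hg hh H => pl1 ha hb hab hf hg hh H

theorem HasPL.prod {a b : ℝ} {G G' : Type*} [AddCommGroup G] [Module ℝ G] [MeasurableSpace G]
    [AddCommGroup G'] [Module ℝ G'] [MeasurableSpace G'] {μ : Measure G} {ν : Measure G'}
    [SFinite ν] (hμ : HasPL a b μ) (hν : HasPL a b ν) : HasPL a b (μ.prod ν) := by
  intro f g h hf hg hh H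
  rw [lintegral_prod _ hf.aemeasurable, lintegral_prod _ hg.aemeasurable,
    lintegral_prod _ hh.aemeasurable]
  apply hμ _ _ _ hf.lintegral_prod_right' hg.lintegral_prod_right' hh.lintegral_prod_right'
  intro x y
  apply hν _ _ _ (hf.comp measurable_prodMk_left) (hg.comp measurable_prodMk_left)
    (hh.comp measurable_prodMk_left)
  intro u v
  exact H (x, u) (y, v)

theorem HasPL.of_equiv {a b : ℝ} {G G' : Type*} [AddCommGroup G] [Module ℝ G] [MeasurableSpace G]
    [AddCommGroup G'] [Module ℝ G'] [MeasurableSpace G'] {μ : Measure G} {ν : Measure G'}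
    (hμ : HasPL a b μ) (e : G → G') (he : MeasurePreserving e μ ν)
    (hlin : ∀ x y, e (a • x + b • y) = a • e x + b • e y) : HasPL a b ν := by
  intro f g h hf hg hh H
  rw [← he.lintegral_comp hf, ← he.lintegral_comp hg, ← he.lintegral_comp hh]
  apply hμ _ _ _ (hf.comp he.measurable) (hg.comp he.measurable) (hh.comp he.measurable)
  intro x y
  simp only [Function.comp_apply, hlin]
  exact H _ _

theorem hasPL_pi {a b : ℝ} (ha : 0 < a) (hb : 0 < b) (hab : a + b = 1) (n : ℕ) :
    HasPL a b (volume : Measure (Fin n → ℝ)) := by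
  induction n with
  | zero =>
    intro f g h hf hg hh H
    have hv : (volume : Measure (Fin 0 → ℝ)) = Measure.dirac 0 := by
      rw [volume_pi, Measure.pi_of_empty]
      congr 1
      exact Subsingleton.elim _ _
    rw [hv, lintegral_dirac, lintegral_dirac, lintegral_dirac]
    simpa using H 0 0
  | succ n ih =>
    have h1 : HasPL a b (volume : Measure (ℝ × (Fin n → ℝ))) := (hasPL_real ha hb hab).prod ih
    refine h1.of_equiv _
      (volume_preserving_piFinSuccAbove (fun _ : Fin (n + 1) => ℝ) 0).symm ?_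
    intro x y
    ext i
    refine Fin.cases ?_ (fun j => ?_) i <;>
      simp [MeasurableEquiv.piFinSuccAbove_symm_apply, Fin.insertNthEquiv]

theorem hasPL_euclidean {a b : ℝ} (ha : 0 < a) (hb : 0 < b) (hab : a + b = 1) (n : ℕ) :
    HasPL a b (volume : Measure (EuclideanSpace ℝ (Fin n))) :=
  (hasPL_pi ha hb hab n).of_equiv _ (PiLp.volume_preserving_toLp (Fin n)) (fun _ _ => rfl)

/-- **Prékopa–Leindler inequality** on Euclidean space. -/
theorem prekopa_leindler {n : ℕ} {a b : ℝ} (ha : 0 < a) (hb : 0 < b) (hab : a + b = 1)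
    {f g h : EuclideanSpace ℝ (Fin n) → ℝ≥0∞} (hf : Measurable f) (hg : Measurable g)
    (hh : Measurable h) (H : ∀ x y, f x ^ a * g y ^ b ≤ h (a • x + b • y)) :
    (∫⁻ x, f x) ^ a * (∫⁻ x, g x) ^ b ≤ ∫⁻ x, h x :=
  hasPL_euclidean ha hb hab n f g h hf hg hh H

/-- **Prékopa–Leindler inequality** for real continuous weights on compact sets, midpoint form. -/
theorem prekopa_leindler_sets {n : ℕ} {A B C : Set (EuclideanSpace ℝ (Fin n))}
    (hA : IsCompact A) (hB : IsCompact B) (hC : IsCompact C)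
    {f g h : EuclideanSpace ℝ (Fin n) → ℝ} (hf : Continuous f) (hg : Continuous g)
    (hh : Continuous h) (hf0 : ∀ x, 0 ≤ f x) (hg0 : ∀ x, 0 ≤ g x) (hh0 : ∀ x, 0 ≤ h x)
    (H : ∀ x ∈ A, ∀ y ∈ B, (1 / 2 : ℝ) • x + (1 / 2 : ℝ) • y ∈ C ∧
      f x * g y ≤ h ((1 / 2 : ℝ) • x + (1 / 2 : ℝ) • y) ^ 2) :
    (∫ x in A, f x) * (∫ x in B, g x) ≤ (∫ x in C, h x) ^ 2 := by
  have key := prekopa_leindler (n := n) (a := 1 / 2) (b := 1 / 2) (by norm_num) (by norm_num)
    (by norm_num) (f := A.indicator fun x => ENNReal.ofReal (f x))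
    (g := B.indicator fun x => ENNReal.ofReal (g x))
    (h := C.indicator fun x => ENNReal.ofReal (h x))
    (hf.measurable.ennreal_ofReal.indicator hA.measurableSet)
    (hg.measurable.ennreal_ofReal.indicator hB.measurableSet)
    (hh.measurable.ennreal_ofReal.indicator hC.measurableSet) (by
      intro x y
      by_cases hx : x ∈ A
      swap
      · simp [indicator_of_notMem hx]
      by_cases hy : y ∈ B
      swap
      · simp [indicator_of_notMem hy]
      obtain ⟨h1, h2⟩ := H x hx y hy
      rw [indicator_of_mem hx, indicator_of_mem hy, indicator_of_mem h1,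
        ← ENNReal.mul_rpow_of_nonneg _ _ (by norm_num), ← ENNReal.ofReal_mul (hf0 x),
        ENNReal.ofReal_rpow_of_nonneg (mul_nonneg (hf0 x) (hg0 y)) (by norm_num)]
      apply ENNReal.ofReal_le_ofReal
      rw [← Real.sqrt_eq_rpow]
      exact Real.sqrt_le_iff.2 ⟨hh0 _, h2⟩)
  rw [lintegral_indicator hA.measurableSet, lintegral_indicator hB.measurableSet,
    lintegral_indicator hC.measurableSet,
    ← ofReal_integral_eq_lintegral_ofReal (hf.continuousOn.integrableOn_compact hA)
      (Eventually.of_forall hf0),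
    ← ofReal_integral_eq_lintegral_ofReal (hg.continuousOn.integrableOn_compact hB)
      (Eventually.of_forall hg0),
    ← ofReal_integral_eq_lintegral_ofReal (hh.continuousOn.integrableOn_compact hC)
      (Eventually.of_forall hh0),
    ← ENNReal.mul_rpow_of_nonneg _ _ (by norm_num),
    ← ENNReal.ofReal_mul (integral_nonneg hf0),
    ENNReal.ofReal_rpow_of_nonneg (mul_nonneg (integral_nonneg hf0) (integral_nonneg hg0))
      (by norm_num), ENNReal.ofReal_le_ofReal_iff (integral_nonneg hh0),
    ← Real.sqrt_eq_rpow] at key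
  exact (Real.sqrt_le_iff.1 key).2

end Crest.Agent.PL
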